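import Crest.Agent.X212.Nkq7.Nk

/-! # Row 212, GL-LOCS (helper7): LEAF NK -/

set_option autoImplicit false
set_option linter.unusedSectionVars false
noncomputable section
open scoped Manifold ContDiff Topology
open Set Function Filter TopologicalSpace

namespace Crest.Agent.X212.Nkq7
open An An.Job M Nd18 Gj67 Gb50 Loc45
open Gl67 (ka ka_zero ka_mono ka_lip)
open Rsp69.Tw (EL)

variable {Wi : Type} {X : Mf 4} {A κ lam : Type} [Fintype A] [Fintype κ] [Fintype lam]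
  [DecidableEq lam] {M : Mark X A κ} {W : World M} {L : ML M lam} {Λ : Lns W L}
  {A' h : Type} [Fintype A'] [DecidableEq A'] [Fintype h] {r n : ℕ}
  {J : Job Wi Λ A' h r n} {σ : Cel A'} {a : A'}
  {U Up R : Type} [NormedAddCommGroup U] [NormedSpace ℝ U] [NormedAddCommGroup Up]
  [NormedSpace ℝ Up] [NormedAddCommGroup R] [NormedSpace ℝ R]
  {d : Dat J σ a U Up R} {q₀ : Wi →₀ ℝ} {δ : ℝ} {k : ℕ} {I : Ix d q₀ δ k}
  {O : Clopens (W.Z (J.cf a)).M} {x : A}

theorem adX (e : I.𝒟) : Eqv71.Ad0 (I.cX e) (J.B M.c0) (I.GX e) :=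
  have g := (I.ubX e).gd.adm
  ⟨g.ok, g.conn, g.sm, g.pos⟩

variable (hc : I.CgS) {K : ∀ e, NS I x e} {K' : ∀ e, NX I x e} (P : NP I O K K')
include hc P

theorem nh : NQ.NH P.nq (I.c O) (J.xs x).N (k + 1) := ⟨(hc _).1, (I.ok.ok.xs x).2, I.γN _⟩

theorem cl1 : I.Cl O (fun e => ((J.xs x).N.smul (J.ν x (I.s e))).q1 (K e))
    fun e => ((J.xs x).N.smul (J.ν x (I.s e))).q1 (K' e) :=
  have := s1 (n := 0) (nh hc P) (ub_ν x)
  ⟨(this.1.of_le k.le_succ).congr' fun e i y => by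
      cases i; exacts [(q1_noz _ (K e) (I.cS e) y).1, (q1_noz _ (K' e) (I.cX e) y).1],
    (this.2.of_le k.le_succ).congr' fun e i y => by
      cases i; exacts [(q1_noz _ (K e) (I.cS e) y).2, (q1_noz _ (K' e) (I.cX e) y).2]⟩

theorem cl2 (q : YW (J.xs x).Y.I (J.xs x).Y.M →₀ ℝ) :
    I.Cl O (fun e => fsum (fun T => (J.xs x).N.q2 (K e) T.1) (J.ν x (I.s e) • q))
    fun e => fsum (fun T => (J.xs x).N.q2 (K' e) T.1) (J.ν x (I.s e) • q) :=
  have := s2 (n := 0) (nh hc P) (ub_ν x) q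
  ⟨(this.1.of_le k.le_succ).congr' fun e i y => by
      cases i; exacts [(f2_noz (K e) (I.cS e) y _).1, (f2_noz (K' e) (I.cX e) y _).1],
    (this.2.of_le k.le_succ).congr' fun e i y => by
      cases i; exacts [(f2_noz (K e) (I.cS e) y _).2, (f2_noz (K' e) (I.cX e) y _).2]⟩

omit P in
/-- **LEAF NK** -/
theorem nkS (hg : I.GlS) : I.NkS :=
  have N := fun x => (I.ok.ok.xs x).2
  have g := fun e => (I.ubX e).gd
  ⟨main (F := fun x e K => ((J.xs x).N.smul (J.ν x (I.s e))).q1 K)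
    (F' := fun x e K => ((J.xs x).N.smul (J.ν x (I.s e))).q1 K) (fun _ _ _ _ => cl1 hc)
    (fun e K s y => q1_sh K s _ _ (g e).hB (g e).hG (I.ubX e).tame (Eqv71.nd_smul (N _) _) (adX e) y)
    (fun _ K _ hy => q1_off K hy) hg, fun w => main
    (F := fun x e K => fsum (fun T : YW _ _ => (J.xs x).N.q2 K T.1) (J.ν x (I.s e) • (J.xs x).ty w))
    (F' := fun x e K => fsum (fun T : YW _ _ => (J.xs x).N.q2 K T.1) (J.ν x (I.s e) • (J.xs x).ty w))
    (fun _ _ _ _ P => cl2 hc P _)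
    (fun e K s y => q2_sh K s _ _ (g e).hB (g e).hG (I.ubX e).tame (N _) (adX e) y _)
    (fun _ K _ hy => q2_off K hy _) hg⟩

end Crest.Agent.X212.Nkq7
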