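import Crest.Agent.X212.Eqv71.Nk1
import Crest.Agent.X212.Cht98.Cov
import Crest.Agent.X212.Pj41.Cm
import Crest.Agent.X212.Nka63.A

/-! # Row 212, GL-LOCS (helper7): shifted necks -/

set_option autoImplicit false
set_option linter.unusedSectionVars false
noncomputable section
open scoped Manifold ContDiff Topology
open MeasureTheory Set Function Filter

namespace Crest.Agent.X212.Nkq7
open An Cyf70 Dgr80 Nd18 Eqv71

section time
variable (p q : Option ℝ) (s d t : ℝ)

theorem Jv_sh : t ∈ Jv (p.map (· - s)) (q.map (· - s)) ↔ t + s ∈ Jv p q := by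
  cases p <;> cases q <;> simp [Jv, sub_lt_iff_lt_add, lt_sub_iff_add_lt]

theorem ct_sh : ct (p.map (· - s)) (q.map (· - s)) d t = ct p q d (t + s) := by
  cases p <;> cases q <;> simp only [ct, Option.map, Option.elim] <;> ring_nf

theorem tf_sh : tf (p.map (· - s)) (q.map (· - s)) t = tf p q (t + s) - s := by
  cases p <;> cases q <;> simp only [tf, Option.map, Option.elim] <;> ring_nf

end time

variable {E3 : Type} [NormedAddCommGroup E3] [NormedSpace ℝ E3] [FiniteDimensional ℝ E3]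
  [MeasurableSpace E3] [BorelSpace E3]
  {H3 : Type} [TopologicalSpace H3] {I3 : ModelWithCorners ℝ E3 H3} [I3.Boundaryless]
  {Y : Type} [TopologicalSpace Y] [ChartedSpace H3 Y] [IsManifold I3 ∞ Y] [T2Space Y]
  [MeasurableSpace Y] [BorelSpace Y] [SecondCountableTopology Y] [CompactSpace Y]
  {κ : Type} [Fintype κ] {lam : Type} [Fintype lam]
  {E : Type} [NormedAddCommGroup E] [NormedSpace ℝ E] [FiniteDimensional ℝ E]
  [MeasurableSpace E] [BorelSpace E]
  {HM : Type} [TopologicalSpace HM] {I : ModelWithCorners ℝ E HM} [I.Boundaryless]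
  {M : Type} [TopologicalSpace M] [ChartedSpace HM M] [IsManifold I ∞ M]
  [MeasurableSpace M] [BorelSpace M] [T2Space M] [SecondCountableTopology M]
  {D : YD I3 Y κ lam} {B : Base M (Option κ) lam} {G : Geo I M (Option κ) lam} {r n : ℕ}
  (K : Nk D B G) (s : ℝ) (hv : D.Z.IsVol) (hv' : G.F.IsVol)

/-- the neck with the time `tm - s` -/
def sh : Nk D B G where
  p := K.p.map (· - s)
  q := K.q.map (· - s)
  ψ := (Cht98.tau Y s).toOpenPartialHomeomorph.trans K.ψ
  tm x := K.tm x - s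
  len := by
    rintro _ ha _ hb
    obtain ⟨a, h, rfl⟩ := Option.mem_map.1 ha
    obtain ⟨b, h', rfl⟩ := Option.mem_map.1 hb
    linarith [K.len a h b h']
  src := Set.ext fun z => ⟨fun h => ⟨trivial, (Jv_sh ..).2 (K.mem_src.1 h.2)⟩,
    fun h => ⟨trivial, K.mem_src.2 ((Jv_sh ..).1 h.2)⟩⟩
  tgt := Set.ext fun z => by
    rw [mem_preimage, Jv_sh, sub_add_cancel, ← mem_preimage, ← K.tgt]
    exact ⟨fun h => h.1, fun h => ⟨h, trivial⟩⟩
  cont := K.cont.sub continuous_const
  tm_ψ z hz := sub_eq_of_eq_add (K.tm_ψ _ hz.2)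
  iso := Pj41.FRel.iso (((Pj41.fRel_of_iso (F := D.Z) (F' := D.Z) (Cht98.iso_tau D.F.toPre s)).mono
    (OpenPartialHomeomorph.open_source _) inter_subset_left).trans K.rel fun _ hx => hx.2) hv hv'
  P a b z hz := (K.P a b _ hz.2).trans (by cases a <;> cases b <;> rfl)
  o a b c d z hz := K.o a b c d _ hz.2
  l z hz := K.l _ hz.2
  il := K.il
  a a z hz := (K.a a _ hz.2).trans (by cases a <;> rfl)

theorem sh_ψ (z : Y × ℝ) : (sh K s hv hv').ψ z = K.ψ (z.1, z.2 + s) := rfl

theorem sh_src {z : Y × ℝ} : z ∈ (sh K s hv hv').ψ.source ↔ (z.1, z.2 + s) ∈ K.ψ.source :=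
  ⟨fun h => h.2, fun h => ⟨trivial, h⟩⟩

theorem sh_tgt {x : M} (h : x ∈ (sh K s hv hv').ψ.target) : x ∈ K.ψ.target := h.1

theorem nkR_sh : NkR univ univ id (sh K s hv hv') K s :=
  ⟨fun x _ => by simp [Nk.τ, sh, tf_sh], fun t => (ct_sh ..).symm,
    fun x _ => by simp [Nk.χ, Nk.cut, sh, ct_sh], fun _ _ _ => rfl, fun _ h => (h trivial).elim,
    fun _ h => (h trivial).elim, fun t => (ct_sh ..).symm⟩

/-- equal field parts -/
def PE (τ τ' : Pt M (Option κ) lam r n) (c : Cfg M (Option κ) lam r) (y : M) : Prop :=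
  τ.D c y = τ'.D c y ∧ τ.C c y = τ'.C c y

variable {N : ND Y lam} {c : Cfg M (Option κ) lam r}

section inv
variable (hB : B.OK I) (hG : G.OK B) {C : ℕ → ℝ} (hT : G.F.Tame C) (hN : N.OK D) (h : Ad0 c B G)
  (y : M)
include hB hG hT hN h

theorem q1_sh : PE (N.q1 (n := n) (sh K s hv hv')) (N.q1 K) c y :=
  have k := cr0_refl hB hG isOpen_univ h fun _ h => (h trivial).elim
  have R := nkR_sh K s hv hv'
  have a := R.q1_rel0 (r := r) (n := n) (kc_refl hB hG isClopen_univ (Mp86.bumps_of_tame _ hT)) hN hT hT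
    fun _ => R.sr hB _
  have b := q1_nat0 (r := r) (n := n) _ hB hG hT isClopen_univ R.o hN
  ⟨(b.D k y trivial).trans (a.D k y trivial).symm, (b.C k y trivial).trans (a.C k y trivial).symm⟩

theorem q2_sh (q : YW I3 Y →₀ ℝ) : PE (fsum (fun T => N.q2 (n := n) (sh K s hv hv') T.1) q)
    (fsum (fun T => N.q2 K T.1) q) c y :=
  have k := cr0_refl hB hG isOpen_univ h fun _ h => (h trivial).elim
  have R := nkR_sh K s hv hv'
  have a := prel0_fsum (fun T : YW I3 Y => R.q2_rel0 (r := r) (n := n)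
    (kc_refl hB hG isClopen_univ (Mp86.bumps_of_tame _ hT)) hN T.2) q
  have b := prel0_fsum (fun T : YW I3 Y =>
    q2_nat0 (r := r) (n := n) _ hB hG hT isClopen_univ R.o hN T.2) q
  ⟨(b.D k y trivial).trans (a.D k y trivial).symm, (b.C k y trivial).trans (a.C k y trivial).symm⟩

end inv

section off
variable {y : M} (hy : y ∉ K.ψ.target)
include hy

theorem q1_off : (N.q1 (n := n) K).D c y = 0 ∧ (N.q1 (n := n) K).C c y = 0 := by
  have e : ∀ a, G.F.D a K.τ y = 0 := fun a => by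
    cases a
    exacts [(congrFun K.D_τ_none _).trans (Nka63.dtf_zero K.len fun e => hy (K.dp_sub one_half_pos e)),
      congrFun (K.D_τ_some _) _]
  simp only [ND.q1, DG.q1, ND.dg, e, zero_smul, Finset.sum_const_zero, neg_zero, true_and]
  exact smul_eq_zero_of_right _ (map_zero _)

theorem q2_off (q : YW I3 Y →₀ ℝ) : (fsum (fun T => N.q2 (n := n) K T.1) q).D c y = 0 ∧
    (fsum (fun T => N.q2 (n := n) K T.1) q).C c y = 0 := by
  have e : ∀ T, N.oc K T c y = 0 := fun T => mul_eq_zero_of_left ((K.cut_τ (by norm_num) y).trans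
    (ct_zero fun e => hy (K.dp_sub (by norm_num) e))) _
  simp [fsum, ND.q2, e]

end off

end Crest.Agent.X212.Nkq7
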