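import Crest.Agent.X212.Loc45.Nr
import Crest.Agent.X212.Gb50.Zer
import Crest.Agent.X212.Nkq7.Sh
import Crest.Agent.X212.Mon62.NkI

/-! # Row 212, GL-LOCS (helper7): weighted neck terms on a pair -/

set_option autoImplicit false
set_option linter.unusedSectionVars false
noncomputable section
open scoped Manifold ContDiff Topology
open MeasureTheory Set Function Filter

namespace Crest.Agent.X212.Nkq7
open An Cyf70 Dgr80 Nd18 Rsp69 Rsp69.Tw Loc45 Gb50

variable {E3 : Type} [NormedAddCommGroup E3] [NormedSpace ℝ E3] [FiniteDimensional ℝ E3]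
  [MeasurableSpace E3] [BorelSpace E3]
  {H3 : Type} [TopologicalSpace H3] {I3 : ModelWithCorners ℝ E3 H3} [I3.Boundaryless]
  {Y : Type} [TopologicalSpace Y] [ChartedSpace H3 Y] [IsManifold I3 ∞ Y] [T2Space Y]
  [MeasurableSpace Y] [BorelSpace Y] [SecondCountableTopology Y] [CompactSpace Y]
  {κ : Type} [Fintype κ] {lam : Type} [Fintype lam]
  {E : Type} [NormedAddCommGroup E] [NormedSpace ℝ E] [FiniteDimensional ℝ E]
  [MeasurableSpace E] [BorelSpace E]
  {HM : Type} [TopologicalSpace HM] {I : ModelWithCorners ℝ E HM} [I.Boundaryless]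
  {M : Type} [TopologicalSpace M] [ChartedSpace HM M] [IsManifold I ∞ M]
  [MeasurableSpace M] [BorelSpace M] [T2Space M] [SecondCountableTopology M]
  {D : YD I3 Y κ lam} {r n : ℕ} {N : ND Y lam}

theorem sm_sum {α V : Type} [AddCommGroup V] [Module ℝ V] (ν : ℝ) (q : α →₀ ℝ) (f : α → V) :
    ((ν • q).sum fun w a => a • f w) = ∑ w ∈ q.support, (ν * q w) • f w :=
  Finsupp.sum_smul_index' fun _ => zero_smul ..

section noz
variable {B : Base M (Option κ) lam} {G : Geo I M (Option κ) lam} (K : Nk D B G)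
  (c : Cfg M (Option κ) lam r) (x : M)

theorem q2_noz (T : YT Y) :
    (N.q2 K T : Pt _ _ _ 0 0).D (noz c) x = (N.q2 K T : Pt _ _ _ r n).D c x ∧
    (N.q2 K T : Pt _ _ _ 0 0).C (noz c) x = (N.q2 K T : Pt _ _ _ r n).C c x := by
  have a : ∀ u : List (YL Y ⊕ YTC), (u.map (N.tl K)).map (tl G.F K.τ N.δ (noz c)) =
      (u.map (N.tl K)).map (tl G.F K.τ N.δ c) := fun u => by
    simp only [List.map_map]
    exact List.map_congr_left fun t _ => by cases t <;> rfl
  have b : ∀ u : List (La Y ⊕ YTC), (u.map (N.ta K)).map (ta G.F K.τ N.δ (noz c)) =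
      (u.map (N.ta K)).map (ta G.F K.τ N.δ c) := fun u => by
    simp only [List.map_map]
    exact List.map_congr_left fun t _ => by cases t <;> rfl
  have sw : ∀ u, (noz c).sw G.F u = c.sw G.F u := fun u => by unfold Cfg.sw; rw [lt_noz]; rfl
  have aw : ∀ ξ, (noz c).aw G.F ξ = c.aw G.F ξ := fun ⟨s, l⟩ => by
    unfold Cfg.aw
    rw [la_noz]
    cases s
    · simp only [Cfg.sd, sw]; rfl
    · rfl
  have h : (noz c).tD B G.F (N.tm K (noz c) 0 T) x = c.tD B G.F (N.tm K c n T) x ∧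
      (noz c).tC B G.F (N.tm K (noz c) 0 T) x = c.tC B G.F (N.tm K c n T) x := by
    cases T <;> simp only [ND.tm, TT.tm, Cfg.tD, Cfg.tC, a, b, sw, aw] <;> exact ⟨rfl, rfl⟩
  exact ⟨congrArg₂ (fun (a : ℝ) (v : c.m.V) => a • nrm v) (oc_noz N K c T x).symm h.1,
    congrArg₂ (fun (a : ℝ) (v : Fm _ c.m.A) => a • nrm v) (oc_noz N K c T x).symm h.2⟩

theorem f2_noz (q : YW I3 Y →₀ ℝ) :
    (fsum (fun T => N.q2 K T.1) q : Pt _ _ _ 0 0).D (noz c) x =
      (fsum (fun T => N.q2 K T.1) q : Pt _ _ _ r n).D c x ∧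
    (fsum (fun T => N.q2 K T.1) q : Pt _ _ _ 0 0).C (noz c) x =
      (fsum (fun T => N.q2 K T.1) q : Pt _ _ _ r n).C c x :=
  ⟨Finset.sum_congr rfl fun T _ => congrArg _ (q2_noz K c x T.1).1,
    Finset.sum_congr rfl fun T _ => congrArg _ (q2_noz K c x T.1).2⟩

omit K in
/-- sums with one term -/
theorem ds_one {α : Type} [Fintype α] {p : α → Prop} {τ : ∀ i, p i → Pt M (Option κ) lam r n} (i : α)
    {h : p i} (z : ∀ j ≠ i, ∀ h, (τ j h).D c x = 0 ∧ (τ j h).C c x = 0) :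
    PE (Pt.dsum p τ) (τ i h) c x := by
  classical
  exact ⟨(Fintype.sum_eq_single i fun j e => dite_eq_right_iff.2 fun k => (z j e k).1).trans
    (dif_pos h), (Fintype.sum_eq_single i fun j e => dite_eq_right_iff.2 fun k =>
      (z j e k).2).trans (dif_pos h)⟩

omit K in
theorem ds_prod {α β : Type} [Fintype α] [Fintype β] {p : α × β → Prop}
    {τ : ∀ i, p i → Pt M (Option κ) lam r n} :
    (Pt.dsum p τ).D c x = ∑ a, (Pt.dsum (fun b => p (a, b)) fun b h => τ (a, b) h).D c x ∧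
    (Pt.dsum p τ).C c x = ∑ a, (Pt.dsum (fun b => p (a, b)) fun b h => τ (a, b) h).C c x :=
  ⟨Fintype.sum_prod_type _, Fintype.sum_prod_type _⟩

end noz

variable {𝒟 : Type*} {X : Cx I M (Option κ) 𝒟} {T : Tw X lam} {n₀ j : ℕ} {P : NQ D T} {c : T.CF n₀}
  (h : NQ.NH P c N j) {ν : 𝒟 → ℝ} (hν : Ub X.l fun d => ‖ν d‖)
include h hν

theorem s1 : T.EL (N := c.SV) j (fun d i => ((N.smul (ν d)).q1 (n := n) (P.K d i)).D (c.c d i)) ∧
    T.EL (N := c.S2) j fun d i => ((N.smul (ν d)).q1 (n := n) (P.K d i)).C (c.c d i) :=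
  have e := (h.o.gd.and T.tame).mono fun d k i => Mon62.q1_smul (n := n) (P.K d i)
    (Mp86.bumps_of_tame _ (k.2 i)) (k.1 i).conn h.nd.sm (ν d)
  have o := (EC.const (T := T) (k := j) hν).el
  ⟨(o.smul h.h7 le_rfl h.q1D).congr (e.mono fun _ k i => funext fun x => (k i x).1.symm),
    (o.smul h.h7 le_rfl h.q1C).congr (e.mono fun _ k i => funext fun x => (k i x).2.symm)⟩

theorem s2 (q : YW I3 Y →₀ ℝ) : T.EL (N := c.SV) j
    (fun d i => (fsum (fun t => N.q2 (n := n) (P.K d i) t.1) (ν d • q)).D (c.c d i)) ∧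
    T.EL (N := c.S2) j
      fun d i => (fsum (fun t => N.q2 (n := n) (P.K d i) t.1) (ν d • q)).C (c.c d i) :=
  have o := fun t => ((EC.const (T := T) (k := j) hν).mul h.h7 (.const (.const ‖q t‖))).el
  ⟨(EL.sum q.support fun t _ => (o t).smul h.h7 le_rfl (h.q2D t.2)).congr' fun _ _ _ =>
      (sm_sum _ _ _).symm,
    (EL.sum q.support fun t _ => (o t).smul h.h7 le_rfl (h.q2C t.2)).congr' fun _ _ _ =>
      (sm_sum _ _ _).symm⟩

end Crest.Agent.X212.Nkq7
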