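import Crest.Agent.X212.Loc45.Ix
import Crest.Agent.X212.Nkq7.Gen

/-! # Row 212, GL-LOCS (helper7): the necks of the face and of the long neck -/

set_option autoImplicit false
set_option linter.unusedSectionVars false
noncomputable section
open scoped Manifold ContDiff Topology
open Set Function Filter TopologicalSpace

namespace Crest.Agent.X212.Nkq7
open An An.Job M Nd18 Gj67 Gb50 Loc45
open Gl67 (ka ka_zero ka_mono ka_lip)
open Rsp69.Tw (EL)

theorem gh_eq {R : ℝ} (hR : 1 ≤ R) (s : ℝ) : gh R s = ka (s - R) :=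
  (le_total 1 s).elim gh_one fun k => (ka_zero (by linarith [f0_le k zero_le_one])).trans
    (ka_zero (by linarith)).symm

theorem ka_abs (s t : ℝ) : |ka s - ka t| ≤ |s - t| := by
  wlog h : t ≤ s generalizing s t
  · rw [abs_sub_comm, abs_sub_comm s]; exact this _ _ (le_of_not_ge h)
  rw [abs_of_nonneg (sub_nonneg.2 (ka_mono h)), abs_of_nonneg (sub_nonneg.2 h)]
  exact ka_lip h

theorem ds_zero {M ι lam α : Type} [Fintype ι] [Fintype lam] [Fintype α] {r n : ℕ} {p : α → Prop}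
    {τ : ∀ i, p i → Pt M ι lam r n} (h : ∀ i, ¬p i) (c x) :
    (Pt.dsum p τ).D c x = 0 ∧ (Pt.dsum p τ).C c x = 0 := by simp [Pt.dsum, h]

theorem ag_mono {p q p' q' : Option ℝ} {L L' s : ℝ} (h : Ag p q p' q' L' s) (e : L ≤ L') :
    Ag p q p' q' L s :=
  ⟨h.1.imp id fun k => ⟨Dp_mono e k.1, Dp_mono e k.2⟩, h.2.imp id fun k => ⟨Dp_mono e k.1, Dp_mono e k.2⟩⟩

variable {Wi : Type} {X : Mf 4} {A κ lam : Type} [Fintype A] [Fintype κ] [Fintype lam]
  [DecidableEq lam] {M : Mark X A κ} {W : World M} {L : ML M lam} {Λ : Lns W L}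
  {A' h : Type} [Fintype A'] [DecidableEq A'] [Fintype h] {r n : ℕ}
  {J : Job Wi Λ A' h r n} {σ : Cel A'} {a : A'}
  {U Up R : Type} [NormedAddCommGroup U] [NormedSpace ℝ U] [NormedAddCommGroup Up]
  [NormedSpace ℝ Up] [NormedAddCommGroup R] [NormedSpace ℝ R]
  {d : Dat J σ a U Up R} {q₀ : Wi →₀ ℝ} {δ : ℝ} {k : ℕ} (I : Ix d q₀ δ k)
  (O : Clopens (W.Z (J.cf a)).M) {x : A}

theorem same {c : M.Cl} {p p' : Prm A} {K : Nk (J.xs x).D (J.B c) (Λ.G J.m c p)}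
    {K' : Nk (J.xs x).D (J.B c) (Λ.G J.m c p')} (h1 : K.p = K'.p) (h2 : K.q = K'.q)
    (h3 : ∀ z ∈ K'.ψ.source, K.ψ z = K'.ψ z) : K.ψ.source = K'.ψ.source ∧ K.ψ.target = K'.ψ.target :=
  have e : K.ψ.source = K'.ψ.source := by rw [K.src, K'.src, h1, h2]
  ⟨e, by rw [← K.ψ.image_source_eq_target, ← K'.ψ.image_source_eq_target, e, image_congr h3]⟩

/-- necks of the face -/
abbrev NS (x : A) (e : I.𝒟) := Nk (J.xs x).D (J.B (J.cf a)) (I.GS e)
/-- necks of the unbroken manifold -/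
abbrev NX (x : A) (e : I.𝒟) := Nk (J.xs x).D (J.B M.c0) (I.GX e)

/-- corresponding necks -/
structure NP (K : ∀ e, NS I x e) (K' : ∀ e, NX I x e) : Prop where
  cor : ∀ L, 0 ≤ L → ∀ e y, I.tm O e y ≤ I.Q e - L →
    (y ∉ (K e).ψ.target ∧ I.φ e y ∉ (K' e).ψ.target) ∨ ∃ z ∈ (K e).ψ.source, z ∈ (K' e).ψ.source ∧
      y = (K e).ψ z ∧ I.φ e y = (K' e).ψ z ∧ Ag (K' e).p (K' e).q (K e).p (K e).q L z.2
  sub : ∀ e, Dp (K' e).p (K' e).q 1 ⊆ Dp (K e).p (K e).q 1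
  lip : ∀ e, ∀ z ∈ (K e).ψ.source, ∀ z' ∈ (K e).ψ.source,
    |I.tm O e ((K e).ψ z') - I.tm O e ((K e).ψ z)| ≤ |z'.2 - z.2|

variable {I O}

/-- the pair of necks -/
def NP.nq {K : ∀ e, NS I x e} {K' : ∀ e, NX I x e} (P : NP I O K K') : NQ (J.xs x).D (I.T O) where
  K e i := Bool.rec (K e) (K' e) i
  cor L := ⟨|L|, abs_nonneg _, .of_forall fun e y hy =>
    (P.cor _ (abs_nonneg L) e y (hy.2 _ rfl)).imp (fun k i => by cases i; exacts [k.1, k.2])
      fun ⟨z, h1, h2, h3, h4, h5⟩ => ⟨z, fun i => by cases i; exacts [⟨h1, h3⟩, ⟨h2, h4⟩],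
        ag_mono h5 (le_abs_self L)⟩⟩
  sub := .of_forall P.sub
  lip := .of_forall fun e y z hz z' hz' (k : y = _) => ⟨_, rfl, k ▸ P.lip e z hz z' hz'⟩

theorem src {e : I.𝒟} {y} {L : ℝ} (hL : 0 ≤ L) (hy : I.tm O e y ≤ I.Q e - L) : y ∈ (I.φ e).source := by
  rw [φ_src I.ok]
  exact ((Ix.tm_ge y).trans hy).trans_lt (by unfold Ix.Q; linarith)

theorem np_none (hx : x ≠ d.x) (k : ∀ e, (jb J d.x).Ac (J.cf a) (I.s e) (x, none))
    (k' : ∀ e, J.Ac M.c0 (I.s e) (x, none)) :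
    NP I ⊤ (fun e => J.K _ x _ _ (k e)) fun e => J.K _ x _ _ (k' e) := by
  choose h1 h2 h3 h4 using fun e => Lit.nk_none I.ok hx (k e) (k' e)
  have s : ∀ e, (J.K _ x _ _ (k' e)).ψ.source = (J.K _ x _ _ (k e)).ψ.source := fun e => by
    rw [Nk.src, Nk.src, h1, h2]
  have t : ∀ e, ∀ z ∈ (J.K _ x _ _ (k e)).ψ.source, I.tm ⊤ e ((J.K _ x _ _ (k e)).ψ z) = 0 :=
    fun e z hz => (Ix.tm_of (O := ⊤) trivial).trans (h4 e _ (OpenPartialHomeomorph.map_source _ hz))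
  refine ⟨fun L hL e y hy => ?_, fun e => by rw [h1, h2], fun e z hz z' hz' => by
    rw [t e z hz, t e z' hz', sub_self, abs_zero]; exact abs_nonneg _⟩
  by_cases c : y ∈ (J.K _ x _ _ (k e)).ψ.target
  · have a := OpenPartialHomeomorph.map_target _ c
    have b := (OpenPartialHomeomorph.right_inv _ c).symm
    exact .inr ⟨_, a, s e ▸ a, b, (congrArg _ b).trans (h3 e _ a).symm, .inl (h1 e), .inl (h2 e)⟩
  · refine .inl ⟨c, fun c' => c ?_⟩
    have a := s e ▸ OpenPartialHomeomorph.map_target _ c'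
    rw [← (I.φ e).injOn (src (O := ⊤) le_rfl ((t e _ a).trans_le (sub_nonneg.2 Ix.Q0.le))) (src hL hy)
      ((h3 e _ a).symm.trans (OpenPartialHomeomorph.right_inv _ c'))]
    exact OpenPartialHomeomorph.map_source _ a

theorem vol (H : d.OK q₀ δ) (x : A) : (J.xs x).D.Z.IsVol := Int54.isVol_cyl (H.ok.xs x).1.vol

theorem np_x {b : Bool} (hO : ∀ y, y ∈ O ↔ 0 < pm b * hc d y)
    (k : ∀ e, (jb J d.x).Ac (J.cf a) (I.s e) (d.x, some b)) (k' : ∀ e, J.Ac M.c0 (I.s e) (d.x, none)) :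
    NP I O (fun e => J.K _ _ _ _ (k e)) fun e =>
      sh (J.K _ _ _ _ (k' e)) (bif b then nl (I.τ e) else 0) (vol I.ok _) (I.ubX e).vol := by
  have H := I.ok
  have T := fun e => (I.lit e).lg
  choose h1 h2 h3 using fun e => Lit.nk_S H (k e)
  choose h4 h5 h6 using fun e => (I.lit e).nk_X H (k' e)
  choose s t using fun e => same (h1 e) (h2 e) (h3 e)
  choose s' t' using fun e => same ((h4 e).trans (X_p H (T e)).symm) ((h5 e).trans (X_q H (T e)).symm)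
    (h6 e)
  have lo := fun e => (H.ok.nk _ _ _ _ (k e)).lo
  have hi := fun e => (H.ok.nk _ _ _ _ (k e)).hi
  have tm : ∀ e, ∀ z ∈ (d.KS b).ψ.source, I.tm O e ((d.KS b).ψ z) = ka (-pm b * z.2 - d.R0) :=
    fun e z hz => (Ix.tm_of ((hO _).2 ((S_tgt H b).1 ((d.KS b).ψ.map_source hz)).2)).trans
      ((hS_ψ H b hz).trans (gh_eq H.R1 _))
  refine ⟨fun L hL e y hy => ?_, fun e z hz => ?_, fun e z hz z' hz' => ?_⟩
  · by_cases c : y ∈ (d.KS b).ψ.target
    · obtain ⟨z, hz, rfl⟩ := (d.KS b).ψ.surjOn c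
      obtain ⟨a1, a2⟩ := X_S H (T e) b hz (src hL hy)
      refine .inr ⟨z, s e ▸ hz, (sh_src ..).2 (s' e ▸ a1), (h3 e z hz).symm,
        a2.symm.trans (h6 e _ a1).symm, ?_⟩
      have a3 : -pm b * z.2 + L ≤ nl (I.τ e) := by
        by_contra! c'
        have := ka_lip (show -pm b * z.2 - d.R0 ≤ -pm b * z.2 + L - d.R0 by linarith)
        have := ka_mono (show dp ((1 - I.τ e) / 2) - d.R0 ≤ -pm b * z.2 + L - d.R0 by
          linarith [dp_le (T e).half (T e).lt, nl_ge' H (T e), H.R1])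
        rw [tm e z hz, Ix.Q, Dat.la] at hy
        unfold dp at this
        linarith
      simp only [sh, h4, h5, lo, hi]
      cases b <;> simp [Loc45.Ag, Dp, pm] at a3 ⊢ <;> linarith
    · refine .inl ⟨t e ▸ c, fun c' => c ((S_tgt H b).2 ⟨?_, (hO y).1 (Ix.tm_le (by linarith))⟩)⟩
      have := (X_tgt H (T e)).1 (t' e ▸ sh_tgt _ _ _ _ c')
      rwa [φ_eq H, h0_up H] at this
  · simp only [sh, h4, h5, lo, hi] at hz ⊢
    cases b <;> simp [Dp] at hz ⊢ <;> linarith [hz.1, hz.2]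
  · rw [s] at hz hz'
    rw [h3 e z hz, h3 e z' hz', tm e z hz, tm e z' hz']
    refine (ka_abs _ _).trans_eq ?_
    rw [sub_sub_sub_cancel_right, ← mul_sub, abs_mul]
    cases b <;> simp [pm]

variable {u u' : I.𝒟 → Pt (W.Z (J.cf a)).M (Option κ) (lam ⊕ lam) r n}
  {v v' : I.𝒟 → Pt (W.Z M.c0).M (Option κ) (lam ⊕ lam) r n}

theorem cl_congr (h : I.Cl O u v) (e : ∀ e, ∀ y ∈ O, PE (u' e) (u e) (I.cS e) y)
    (e' : ∀ e y, PE (v' e) (v e) (I.cX e) y) : I.Cl O u' v' :=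
  have k := fun e y (hy : y ∈ (I.cx O).bd 0 e) => Ix.tm_le ((hy.2 _ rfl).trans_eq (sub_zero _))
  ⟨Rsp69.Cx.Pr.congr h.D ⟨0, le_rfl, .of_forall fun s y hy i => by
      cases i; exacts [(e s y (k s y hy)).1.symm, (e' s _).1.symm]⟩,
    Rsp69.Cx.Pr.congr h.C ⟨0, le_rfl, .of_forall fun s y hy i => by
      cases i; exacts [(e s y (k s y hy)).2.symm, (e' s _).2.symm]⟩⟩

section main
variable (F : ∀ x e, NS I x e → Pt (W.Z (J.cf a)).M (Option κ) (lam ⊕ lam) r n)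
  (F' : ∀ x e, NX I x e → Pt (W.Z M.c0).M (Option κ) (lam ⊕ lam) r n)

/-- the terms of one wall -/
abbrev dS (x : A) (e : I.𝒟) :=
  Pt.dsum (fun b => (jb J d.x).Ac (J.cf a) (I.s e) (x, b)) fun b hi => F x e (J.K _ x b _ hi)
abbrev dX (x : A) (e : I.𝒟) :=
  Pt.dsum (fun b => J.Ac M.c0 (I.s e) (x, b)) fun b hi => F' x e (J.K _ x b _ hi)

variable {F F'}

theorem dX_eq (e) (k' : J.Ac M.c0 (I.s e) (x, none)) (y) :
    PE (dX F' x e) (F' x e (J.K _ x _ _ k')) (I.cX e) y := ds_one _ _ none fun j hj k => by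
  cases j
  exacts [(hj rfl).elim, (Lit.acX_some _ _ k).elim]

variable (cl : ∀ x O K K', NP I O K K' → I.Cl O (fun e => F x e (K e)) fun e => F' x e (K' e))
include cl

theorem cl_ne (hx : x ≠ d.x) : I.Cl ⊤ (dS F x) (dX F' x) := by
  have H := I.ok
  have nS := fun e b i => hx (((I.lit e).acS_some H (b := b)).1 i)
  rcases I.act x with k' | k'
  · have k := fun e => ((I.lit e).ac_none H hx).2 (k' e)
    refine cl_congr (cl _ _ _ _ (np_none hx k k')) (fun e y _ => ds_one _ _ none fun j hj i => ?_)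
      fun e => dX_eq e _
    cases j
    exacts [(hj rfl).elim, (nS e _ i).elim]
  · have a : ∀ e b, ¬(jb J d.x).Ac (J.cf a) (I.s e) (x, b) := fun e b i => by
      cases b
      exacts [k' e (((I.lit e).ac_none H hx).1 i), nS e _ i]
    have a' : ∀ e b, ¬J.Ac M.c0 (I.s e) (x, b) := fun e b i => by
      cases b
      exacts [k' e i, Lit.acX_some _ _ i]
    constructor <;> refine EL.zero.congr' fun e i y => Eq.symm ?_ <;> cases i
    exacts [(ds_zero (a e) ..).1, (ds_zero (a' e) ..).1, (ds_zero (a e) ..).2, (ds_zero (a' e) ..).2]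

variable (hs : ∀ e K s y, PE (F' d.x e (sh K s (vol I.ok _) (I.ubX e).vol)) (F' d.x e K) (I.cX e) y)
  (z : ∀ e K, ∀ y ∉ K.ψ.target, (F d.x e K).D (I.cS e) y = 0 ∧ (F d.x e K).C (I.cS e) y = 0)
include hs z

theorem cl_x {b : Bool} (hO : ∀ y, y ∈ O ↔ 0 < pm b * hc d y) : I.Cl O (dS F d.x) (dX F' d.x) :=
  have H := I.ok
  cl_congr (cl _ _ _ _ (np_x hO (fun e => ((I.lit e).acS_some H).2 rfl) fun e => (I.lit e).acX_x))
    (fun e y hy => ds_one _ _ (some b) fun j hj i => by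
      rcases j with _ | j
      · exact (Lit.acS_x H i).elim
      refine z e _ y fun c => ?_
      obtain ⟨h1, h2, h3⟩ := Lit.nk_S H i
      have h4 := ((S_tgt H j).1 ((same h1 h2 h3).2 ▸ c)).2
      have h5 := (hO y).1 hy
      cases b <;> cases j <;> simp [pm] at hj h4 h5 <;> linarith)
    fun e y => ⟨(dX_eq e _ y).1.trans (hs ..).1.symm, (dX_eq e _ y).2.trans (hs ..).2.symm⟩

theorem main (hg : I.GlS) :
    I.Cl ⊤ (fun e => Pt.dsum ((jb J d.x).Ac (J.cf a) (I.s e)) fun i hi => F i.1 e (J.K _ i.1 i.2 _ hi))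
      fun e => Pt.dsum (J.Ac M.c0 (I.s e)) fun i hi => F' i.1 e (J.K _ i.1 i.2 _ hi) := by
  have key : ∀ x, I.Cl ⊤ (dS F x) (dX F' x) := fun x => by
    by_cases hx : x = d.x
    · subst hx
      refine hg ⟨_, (clopen_side I.ok).1⟩ _ _ (cl_x cl hs z (b := false) fun y => ?_)
        (cl_x cl hs z (b := true) fun y => ?_)
      · simp [pm]
      · exact (not_lt.trans (hc_ne I.ok y).symm.le_iff_lt).trans (by simp [pm])
    · exact cl_ne cl hx
  exact ⟨(EL.sum Finset.univ fun x _ => (key x).D).congr' fun e i y => by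
      cases i <;> symm <;> exact (ds_prod ..).1,
    (EL.sum Finset.univ fun x _ => (key x).C).congr' fun e i y => by
      cases i <;> symm <;> exact (ds_prod ..).2⟩

end main

theorem ub_ν (x : A) : Rsp69.Ub I.l fun e => ‖J.ν x (I.s e)‖ :=
  let ⟨C, hC⟩ := (isCompact_closedBall ((1, 0) : ℝ × Tc σ a) 1).exists_bound_of_continuousOn
    ((I.ok.ok.ν x).comp (cd_ee d.y.s)).continuous.continuousOn
  .of_le C fun e => hC (I.τ e, (I.p e).1) (by
    rw [← closedBall_prod_same]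
    exact ⟨show |(I.τ e : ℝ) - 1| ≤ 1 from
      abs_le.2 ⟨by linarith [(I.lit e).lg.half], by linarith [(I.lit e).lg.lt]⟩,
      mem_closedBall_zero_iff.2 ((norm_fst_le _).trans (I.np e))⟩)

end Crest.Agent.X212.Nkq7
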